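import Vale.Agent.P146.Anti.Main
import Vale.Agent.P146.Anti.Tail
import Vale.Agent.P146.MargIneq

/-!
# P146: the fluctuations of the free energy diverge below the critical temperature
-/

open MeasureTheory Filter Topology

namespace Vale.Agent.Results.P146.Diverge

open Vale.Agent.P146

theorem result : ∀ β : ℝ, 1 < β →
    (∀ L δ : ℝ, 0 < δ → ∀ᶠ n : ℕ in atTop, ∀ x : ℝ,
      (Vale.Agent.P150.disorder n).real {g | |freeEnergy n β g - x| ≤ L} ≤ δ) ∧
    Tendsto (fun n : ℕ => freeVar n β) atTop atTop :=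
  fun β hβ =>
    ⟨divergeStmt_of (margStmt_of semiStmt ineqStmt ratioStmt) tailStmt diagStmt β hβ,
      unboundedStmt_of Proj.varStmt (gMean_ge spectralStmt (margStmt_of semiStmt ineqStmt ratioStmt)) β hβ⟩

end Vale.Agent.Results.P146.Diverge
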