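import Vale.Agent.P146.Sup.Final

/-!
# P146: the variance of the free energy is smaller than the volume by a power
-/

namespace Vale.Agent.Results.P146.PowerBound

open Vale.Agent.P146

theorem result : ∀ β : ℝ, 0 < β → ∃ c C : ℝ, 0 < c ∧
    ∀ n : ℕ, 1 ≤ n → freeVar n β ≤ C * (n : ℝ) ^ (1 - c) :=
  Sup.superStmt

end Vale.Agent.Results.P146.PowerBound
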